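import Mathlib.FieldTheory.Finite.Basic
import Mathlib.Algebra.Polynomial.Roots
import Mathlib.Tactic.ComputeDegree
import Mathlib.Tactic.FieldSimp
import Mathlib.Tactic.LinearCombination

set_option linter.all false

/-!
P180: biadditive forms on a finite field which are invariant under multiplication with squares.
-/

namespace Vale.Agent.P180.R2.H259.Schur

variable {K : Type*} [Field K]

section

variable {M : Type*} [CommGroup M] (c : K → K → M)
  (h1 : ∀ t t' u, c (t + t') u = c t u * c t' u)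
  (h2 : ∀ t u u', c t (u + u') = c t u * c t u')
  (hinv : ∀ s : K, s ≠ 0 → ∀ t u, c (s ^ 2 * t) (s ^ 2 * u) = c t u)

include h1 h2 hinv

theorem form_trivial_of {s v : K} (hs : s ≠ 0) (hv : v ≠ 0) (hsv : 1 + s ^ 2 = v ^ 2)
    (hw : s ^ 4 + s ^ 2 + 1 ≠ 0) (t u : K) : c t u = 1 := by
  have key : ∀ t u, c t ((s ^ 2 + (s ^ 2)⁻¹ + 1) * u) = 1 := by
    intro t u
    have e1 := hinv v hv t u
    rw [← hsv, add_mul, add_mul, one_mul, one_mul, h1, h2, h2, hinv s hs] at e1
    have e2 := hinv s⁻¹ (inv_ne_zero hs) (s ^ 2 * t) u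
    have e3 : s⁻¹ ^ 2 * (s ^ 2 * t) = t := by field_simp
    rw [e3] at e2
    have e4 : (s ^ 2 + (s ^ 2)⁻¹ + 1) * u = s ^ 2 * u + s⁻¹ ^ 2 * u + u := by
      rw [add_mul, add_mul, one_mul, inv_pow]
    rw [e4, h2, h2, e2]
    -- c t u * c t (s²u) * (c (s² t) u * c t u) = c t u
    have e5 : c t u * (c t (s ^ 2 * u) * (c (s ^ 2 * t) u * c t u)) = c t u * 1 := by
      rw [mul_one, ← mul_assoc]
      exact e1
    have e6 := mul_left_cancel e5
    rw [← mul_assoc] at e6
    exact e6
  have hw' : s ^ 2 + (s ^ 2)⁻¹ + 1 ≠ 0 := by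
    intro h
    apply hw
    have hs2 : s ^ 2 ≠ 0 := pow_ne_zero 2 hs
    have e : s ^ 4 + s ^ 2 + 1 = s ^ 2 * (s ^ 2 + (s ^ 2)⁻¹ + 1) := by
      field_simp
      ring
    rw [e, h, mul_zero]
  have := key t ((s ^ 2 + (s ^ 2)⁻¹ + 1)⁻¹ * u)
  rwa [mul_inv_cancel_left₀ hw'] at this

end

open Polynomial in
/-- existence of the scalars in a large field -/
theorem exists_scalars [Finite K] (hK : 13 < Nat.card K) :
    ∃ s v : K, s ≠ 0 ∧ v ≠ 0 ∧ 1 + s ^ 2 = v ^ 2 ∧ s ^ 4 + s ^ 2 + 1 ≠ 0 := by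
  haveI := Fintype.ofFinite K
  rw [Nat.card_eq_fintype_card] at hK
  have hK' : ∀ P : K[X], P ≠ 0 → P.natDegree ≤ 13 → ∃ x, P.eval x ≠ 0 := by
    intro P hP hd
    by_contra hc
    push Not at hc
    apply hP
    apply Polynomial.eq_zero_of_natDegree_lt_card_of_eval_eq_zero P (f := fun x : K => x)
      Function.injective_id hc
    omega
  by_cases h2 : (2 : K) = 0
  · -- characteristic two
    obtain ⟨x, hx⟩ := hK' (X * (X + 1) * (X ^ 4 + X ^ 2 + 1)) (by
      apply Polynomial.Monic.ne_zero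
      monicity!) (le_trans (by compute_degree) (show 6 ≤ 13 by decide))
    simp only [eval_mul, eval_add, eval_X, eval_one, eval_pow] at hx
    refine ⟨x, x + 1, ?_, ?_, ?_, ?_⟩
    · exact left_ne_zero_of_mul (left_ne_zero_of_mul hx)
    · exact right_ne_zero_of_mul (left_ne_zero_of_mul hx)
    · linear_combination (-x) * h2
    · exact right_ne_zero_of_mul hx
  · obtain ⟨w, hw⟩ := hK' (X * (X ^ 2 - 1) * (X ^ 2 + 1) *
        ((X ^ 2 - 1) ^ 4 + 4 * X ^ 2 * (X ^ 2 - 1) ^ 2 + 16 * X ^ 4)) (by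
      apply Polynomial.Monic.ne_zero
      monicity!) (by compute_degree)
    simp only [eval_mul, eval_add, eval_X, eval_one, eval_pow, eval_sub, eval_ofNat] at hw
    have hw1 := left_ne_zero_of_mul hw
    have hw2 := left_ne_zero_of_mul (left_ne_zero_of_mul hw1)
    have hw3 := right_ne_zero_of_mul (left_ne_zero_of_mul hw1)
    have hw4 := right_ne_zero_of_mul hw1
    have hw5 := right_ne_zero_of_mul hw
    refine ⟨(w ^ 2 - 1) / (2 * w), (w ^ 2 + 1) / (2 * w), ?_, ?_, ?_, ?_⟩
    · exact div_ne_zero hw3 (mul_ne_zero h2 hw2)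
    · exact div_ne_zero hw4 (mul_ne_zero h2 hw2)
    · field_simp
      ring
    · have e : ((w ^ 2 - 1) / (2 * w)) ^ 4 + ((w ^ 2 - 1) / (2 * w)) ^ 2 + 1 =
          ((w ^ 2 - 1) ^ 4 + 4 * w ^ 2 * (w ^ 2 - 1) ^ 2 + 16 * w ^ 4) / (2 * w) ^ 4 := by
        field_simp
        ring
      rw [e]
      exact div_ne_zero hw5 (pow_ne_zero 4 (mul_ne_zero h2 hw2))

theorem form_trivial [Finite K] (hK : 9 < Nat.card K) {M : Type*} [CommGroup M] (c : K → K → M)
    (h1 : ∀ t t' u, c (t + t') u = c t u * c t' u)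
    (h2 : ∀ t u u', c t (u + u') = c t u * c t u')
    (hinv : ∀ s : K, s ≠ 0 → ∀ t u, c (s ^ 2 * t) (s ^ 2 * u) = c t u)
    (halt : ∀ t, c t t = 1) (t u : K) : c t u = 1 := by
  by_cases hK' : 13 < Nat.card K
  · obtain ⟨s, v, hs, hv, hsv, hw⟩ := exists_scalars hK'
    exact form_trivial_of c h1 h2 hinv hs hv hsv hw t u
  · -- `|K| = 11` or `13`: a prime field
    have hpr : (Nat.card K).Prime := by
      obtain ⟨p, n, hp, hn, hcard⟩ : ∃ p n : ℕ, p.Prime ∧ 0 < n ∧ Nat.card K = p ^ n := by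
        haveI := Fintype.ofFinite K
        obtain ⟨n, hp, hcard⟩ := FiniteField.card K (ringChar K)
        exact ⟨ringChar K, n, hp, n.2, by rw [Nat.card_eq_fintype_card]; exact hcard⟩
      have hpp : IsPrimePow (Nat.card K) := ⟨p, n, hp.prime, hn, hcard.symm⟩
      have h10 : ¬ IsPrimePow 10 := by
        rw [isPrimePow_nat_iff]
        rintro ⟨q, k, hq, hk, e⟩
        have h2' : 2 ∣ q := Nat.prime_two.dvd_of_dvd_pow (n := k) (by rw [e]; norm_num)
        have h5' : 5 ∣ q := Nat.prime_five.dvd_of_dvd_pow (n := k) (by rw [e]; norm_num)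
        rw [Nat.prime_dvd_prime_iff_eq Nat.prime_two hq] at h2'
        rw [Nat.prime_dvd_prime_iff_eq Nat.prime_five hq] at h5'
        omega
      have h12 : ¬ IsPrimePow 12 := by
        rw [isPrimePow_nat_iff]
        rintro ⟨q, k, hq, hk, e⟩
        have h2' : 2 ∣ q := Nat.prime_two.dvd_of_dvd_pow (n := k) (by rw [e]; norm_num)
        have h5' : 3 ∣ q := Nat.prime_three.dvd_of_dvd_pow (n := k) (by rw [e]; norm_num)
        rw [Nat.prime_dvd_prime_iff_eq Nat.prime_two hq] at h2'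
        rw [Nat.prime_dvd_prime_iff_eq Nat.prime_three hq] at h5'
        omega
      have h3 : Nat.card K = 10 ∨ Nat.card K = 11 ∨ Nat.card K = 12 ∨ Nat.card K = 13 := by omega
      rcases h3 with h | h | h | h
      · rw [h] at hpp; exact absurd hpp h10
      · rw [h]; exact (by decide : Nat.Prime 11)
      · rw [h] at hpp; exact absurd hpp h12
      · rw [h]; exact (by decide : Nat.Prime 13)
    haveI : Fact (Nat.card K).Prime := ⟨hpr⟩
    -- the additive group is cyclic
    by_cases ht : t = 0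
    · subst ht
      have := h1 0 0 u
      rw [add_zero] at this
      exact (mul_eq_left.mp this.symm)
    have hgen : u ∈ AddSubgroup.zmultiples t := by
      have h3 : AddSubgroup.zmultiples t = ⊤ := by
        apply AddSubgroup.eq_top_of_card_eq
        have h4 : Nat.card (AddSubgroup.zmultiples t) ∣ Nat.card K :=
          AddSubgroup.card_addSubgroup_dvd_card _
        rcases (Nat.dvd_prime hpr).mp h4 with h5 | h5
        · exfalso
          rw [AddSubgroup.card_eq_one] at h5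
          rw [AddSubgroup.zmultiples_eq_bot] at h5
          exact ht h5
        · exact h5
      rw [h3]
      exact AddSubgroup.mem_top u
    obtain ⟨n, rfl⟩ := AddSubgroup.mem_zmultiples_iff.mp hgen
    let f : Multiplicative K →* M := MonoidHom.mk' (fun u => c t u.toAdd) (fun u u' => h2 t _ _)
    change f (Multiplicative.ofAdd (n • t)) = 1
    rw [ofAdd_zsmul, map_zpow]
    change (c t t) ^ n = 1
    rw [halt, one_zpow]

end Vale.Agent.P180.R2.H259.Schur
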